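import Vale.Agent.N061.Pack

/-! # P061: thin tree packings, the fractional form, sharpness -/

namespace Vale.Agent.N061

open Finset Vale.Agent.P061Z Final

variable {V E : Type} [Fintype V] [DecidableEq V] [Fintype E] [DecidableEq E]

omit [Fintype V] [DecidableEq V] [Fintype E] [DecidableEq E] in
lemma ends_ex (ends : E → Sym2 V) : ∃ u v : E → V, ∀ e, ends e = s(u e, v e) :=
  ⟨fun e => (ends e).out.1, fun e => (ends e).out.2, fun e => (Quot.out_eq (ends e)).symm⟩

omit [Fintype E] [DecidableEq E] in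
lemma mem_cut {ends : E → Sym2 V} {A : Finset E} {S : Finset V} {e : E} :
    e ∈ cut ends A S ↔ e ∈ A ∧ ∃ a ∈ S, ∃ b, b ∉ S ∧ ends e = s(a, b) := mem_filter

omit [Fintype E] [DecidableEq E] in
lemma cut_mono (ends : E → Sym2 V) {A B : Finset E} (h : A ⊆ B) (S : Finset V) :
    ((cut ends A S).card : ℝ) ≤ (cut ends B S).card := by
  exact_mod_cast card_le_card (filter_subset_filter _ h)

theorem trees [Nonempty V] {ends : E → Sym2 V} {u v : E → V} (hp : ∀ e, ends e = s(u e, v e))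
    {ε κ : ℝ} (hε : 0 < ε) (hε1 : ε ≤ 1) (hκ : 0 < κ) (h : PC u v univ κ) {b : ℕ}
    (hb : (2 + ε) * b ≤ 2 * κ) : ∃ T : Fin b → Finset E, (∀ i, IsSpanningTree ends (T i)) ∧
    (Pairwise fun i j => Disjoint (T i) (T j)) ∧ ∀ (s j : ℕ) (S : Finset V),
      ((cut ends ((univ.filter fun i : Fin b => s ≤ i ∧ i < s + j).biUnion T) S).card : ℝ) ≤
        ((2 + ε) * j + 10 ^ 90 / ε ^ 12) / (2 * κ) * (cut ends univ S).card := by
  obtain ⟨g, h1, h2⟩ := pack u v hε hε1 hκ h hb
  choose T t1 t2 using fun i : Fin b => exists_tree (ends := ends)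
    (H := univ.filter fun e => g e = i) (connected_of_cut fun S a c => by
      rw [cut_eq hp]; exact h1 i i.2 S a c)
  refine ⟨T, t2, fun i j hij => disjoint_left.2 fun e k1 k2 => hij (Fin.ext
    ((mem_filter.1 (t1 i k1)).2.symm.trans (mem_filter.1 (t1 j k2)).2)), fun s j S => ?_⟩
  refine (cut_mono ends (B := univ.filter fun e => s ≤ g e ∧ g e < s + j ∧ g e < b)
    (fun e he => ?_) S).trans (by rw [cut_eq hp, cut_eq hp]; exact h2 s j S)
  obtain ⟨i, k1, k2⟩ := mem_biUnion.1 he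
  rw [mem_filter, (mem_filter.1 (t1 i k2)).2]
  exact ⟨mem_univ _, (mem_filter.1 k1).2.1, (mem_filter.1 k1).2.2, i.2⟩

omit [Fintype V] [DecidableEq V] [DecidableEq E] in
lemma cross_eq {ends : E → Sym2 V} {u v : E → V} (hp : ∀ e, ends e = s(u e, v e)) (π : V → ℕ) :
    (univ.filter fun e => ¬ ((ends e).map π).IsDiag) = crossE u v univ π :=
  filter_congr fun e _ => by rw [hp, Sym2.map_mk, Sym2.mk_isDiag_iff]

theorem packing [Nonempty V] (ends : E → Sym2 V) {ε k : ℝ} (hε : 0 < ε) (hε1 : ε ≤ 1) (hk : 0 < k)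
    (h : (∀ S : Finset V, S.Nonempty → S ≠ univ → k ≤ (cut ends univ S).card) ∨
      ∀ π : V → ℕ, k / 2 * (((univ.image π).card : ℝ) - 1) ≤
        (univ.filter fun e => ¬ ((ends e).map π).IsDiag).card) {b : ℕ} (hb : (2 + ε) * b ≤ k) :
    ∃ T : Fin b → Finset E, (∀ i, IsSpanningTree ends (T i)) ∧
    (Pairwise fun i j => Disjoint (T i) (T j)) ∧ ∀ (s j : ℕ) (S : Finset V),
      ((cut ends ((univ.filter fun i : Fin b => s ≤ i ∧ i < s + j).biUnion T) S).card : ℝ) ≤
        ((2 + ε) * j + 10 ^ 90 / ε ^ 12) / k * (cut ends univ S).card := by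
  obtain ⟨u, v, hp⟩ := ends_ex ends
  have := trees hp hε hε1 (half_pos hk) (h.elim (fun h => pc_of_cut hk.le fun S a c =>
    cut_eq hp univ S ▸ h S a c) fun h π => cross_eq hp π ▸ h π) (b := b) (by linarith)
  rwa [mul_div_cancel₀ k two_ne_zero] at this

omit [Fintype E] in
lemma single {ends : E → Sym2 V} {b : ℕ} (T : Fin b → Finset E) (i : Fin b) (S : Finset V) :
    ((cut ends (T i) S).card : ℝ) ≤
      (cut ends ((univ.filter fun l : Fin b => (i : ℕ) ≤ l ∧ l < (i : ℕ) + 1).biUnion T) S).card :=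
  cut_mono ends (subset_biUnion_of_mem T (by simp)) S

theorem thin [Nonempty V] (ends : E → Sym2 V) {k : ℕ} (hk : 1 ≤ k) (h : EdgeConnected ends k) :
    ∃ T : Finset E, IsSpanningTree ends T ∧ ∀ S : Finset V,
      ((cut ends T S).card : ℝ) ≤ 10 ^ 94 / k * (cut ends univ S).card := by
  have k0 : (0 : ℝ) < k := by exact_mod_cast hk
  rcases le_total 3 k with k3 | k3
  · obtain ⟨T, h1, -, h2⟩ := packing ends one_pos le_rfl k0
      (Or.inl fun S a c => by exact_mod_cast h S a c) (b := 1) (by norm_num; exact_mod_cast k3)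
    refine ⟨T 0, h1 0, fun S => (single T 0 S).trans ((h2 _ 1 S).trans ?_)⟩
    gcongr
    norm_num
  · obtain ⟨T, -, h1⟩ := exists_tree (ends := ends) (H := univ)
      (connected_of_cut fun S a c => card_pos.1 (lt_of_lt_of_le hk (h S a c)))
    refine ⟨T, h1, fun S => (cut_mono ends (subset_univ _) S).trans
      (le_mul_of_one_le_left (Nat.cast_nonneg _) ((one_le_div k0).2 ?_))⟩
    exact le_trans (by exact_mod_cast k3 : (k : ℝ) ≤ 3) (by norm_num)

theorem remove [Nonempty V] (ends : E → Sym2 V) {ε : ℝ} (hε : 0 < ε) (hε1 : ε ≤ 1) {k a b : ℕ}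
    (h : EdgeConnected ends k) (hk : a + (2 + ε) * b + 10 ^ 90 / ε ^ 12 ≤ k) :
    ∃ T : Fin b → Finset E, (∀ i, IsSpanningTree ends (T i)) ∧
    (Pairwise fun i j => Disjoint (T i) (T j)) ∧ ∀ S : Finset V, S.Nonempty → S ≠ univ →
      a ≤ (cut ends (univ.biUnion T)ᶜ S).card := by
  have p1 : (0 : ℝ) < 10 ^ 90 / ε ^ 12 := by positivity
  have p2 : (0 : ℝ) ≤ a := Nat.cast_nonneg _
  have p3 : (0 : ℝ) ≤ (2 + ε) * b := by positivity
  have k0 : (0 : ℝ) < k := by linarith
  obtain ⟨T, h1, h2, h3⟩ := packing ends hε hε1 k0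
    (Or.inl fun S a c => by exact_mod_cast h S a c) (b := b) (by linarith)
  refine ⟨T, h1, h2, fun S s1 s2 => ?_⟩
  have k1 := h3 0 b S
  rw [filter_true_of_mem fun i _ => ⟨Nat.zero_le _, by simp⟩, div_mul_eq_mul_div,
    le_div_iff₀ k0] at k1
  have k2 : ((cut ends univ S).card : ℝ) ≤
      (cut ends (univ.biUnion T) S).card + (cut ends (univ.biUnion T)ᶜ S).card := by
    unfold cut
    rw [← union_compl (univ.biUnion T), filter_union]
    exact_mod_cast card_union_le _ _
  have k3 : (k : ℝ) ≤ (cut ends univ S).card := by exact_mod_cast h S s1 s2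
  have k4 : (a : ℝ) * k ≤ (cut ends (univ.biUnion T)ᶜ S).card * k := by
    nlinarith [mul_le_mul_of_nonneg_left k3 p2, mul_le_mul_of_nonneg_right hk (k0.le.trans k3),
      mul_le_mul_of_nonneg_right k2 k0.le]
  exact_mod_cast le_of_mul_le_mul_right k4 k0

omit [DecidableEq E] in
lemma card_copies (n : E → ℕ) (p : E → Prop) [DecidablePred p] :
    (univ.filter fun a : Σ e, Fin (n e) => p a.1).card = ∑ e ∈ univ.filter p, n e := by
  rw [show (univ.filter fun a : Σ e, Fin (n e) => p a.1) = (univ.filter p).sigma fun _ => univ by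
    ext; simp, card_sigma]
  simp

theorem frac [Nonempty V] (ends : E → Sym2 V) {ε k : ℝ} (hε : 0 < ε) (hε1 : ε ≤ 1) (hk : 0 < k)
    (x : E → ℝ) (hx : ∀ e, 0 ≤ x e)
    (h : (∀ S : Finset V, S.Nonempty → S ≠ univ → k ≤ ∑ e ∈ cut ends univ S, x e) ∨
      ∀ π : V → ℕ, k / 2 * (((univ.image π).card : ℝ) - 1) ≤
        ∑ e ∈ univ.filter fun e => ¬ ((ends e).map π).IsDiag, x e) :
    ∃ (N : ℕ) (T : Fin N → Finset E), 0 < N ∧ (∀ i, IsSpanningTree ends (T i) ∧ ∀ S : Finset V,
      ((cut ends (T i) S).card : ℝ) ≤ 10 ^ 94 / ε ^ 12 / k * ∑ e ∈ cut ends univ S, x e) ∧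
      (∀ e, ((univ.filter fun i => e ∈ T i).card : ℝ) / N ≤ (2 + ε) / k * x e) ∧
      ∀ c : E → ℝ, (∀ e, 0 ≤ c e) → ∃ i, ∑ e ∈ T i, c e ≤ (2 + ε) / k * ∑ e, c e * x e := by
  obtain ⟨M, hM⟩ : ∃ M : ℝ, M = Fintype.card E := ⟨_, rfl⟩
  have M0 : 0 ≤ M := hM ▸ Nat.cast_nonneg _
  obtain ⟨N, hN⟩ : ∃ N : ℝ, N = (12 * M + 15) / (ε * k) := ⟨_, rfl⟩
  have N0 : 0 < N := hN ▸ by positivity
  have N1 : ε * (N * k) = 12 * M + 15 := by rw [hN]; field_simp
  have N2 : 12 * M + 15 ≤ N * k := by nlinarith [mul_pos N0 hk]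
  have c1 : ∀ (p : E → Prop) [DecidablePred p], N * ∑ e ∈ univ.filter p, x e - M ≤
      (univ.filter fun a : Σ e, Fin ⌊N * x e⌋₊ => p a.1).card ∧
      ((univ.filter fun a : Σ e, Fin ⌊N * x e⌋₊ => p a.1).card : ℝ) ≤
        N * ∑ e ∈ univ.filter p, x e := fun p _ => by
    rw [card_copies (fun e => ⌊N * x e⌋₊) p, Nat.cast_sum, mul_sum]
    refine ⟨?_, sum_le_sum fun e _ => Nat.floor_le (mul_nonneg N0.le (hx e))⟩
    have k1 := sum_le_sum fun e (_ : e ∈ univ.filter p) => (Nat.lt_floor_add_one (N * x e)).le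
    have k2 : ((univ.filter p).card : ℝ) ≤ M := by rw [hM]; exact_mod_cast card_le_univ _
    rw [sum_add_distrib, sum_const, nsmul_one] at k1
    linarith
  obtain ⟨b, hb⟩ : ∃ b, b = ⌊(N * k - 2 * M) / (2 + ε / 2)⌋₊ := ⟨_, rfl⟩
  have b1 : (2 + ε / 2) * b ≤ N * k - 2 * M := (le_div_iff₀' (by linarith)).1
    (hb ▸ Nat.floor_le (div_nonneg (by linarith) (by linarith)))
  have b2 : N * k - 2 * M < (2 + ε / 2) * (b + 1) :=
    (div_lt_iff₀' (by linarith)).1 (hb ▸ Nat.lt_floor_add_one _)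
  have b3 : N * k ≤ (2 + ε) * b := by
    refine le_of_mul_le_mul_left ?_ (show 0 < 2 + ε / 2 by linarith)
    nlinarith [mul_le_mul_of_nonneg_left b2.le (show 0 ≤ 2 + ε by linarith)]
  have b4 : (0 : ℝ) < b := (mul_pos_iff_of_pos_left (show 0 < 2 + ε by linarith)).1 (by linarith)
  obtain ⟨T, t1, t2, t3⟩ := packing (fun a : Σ e, Fin ⌊N * x e⌋₊ => ends a.1) (half_pos hε)
    (by linarith) (show 0 < N * k - 2 * M by linarith) (h.imp (fun h S a c => by
      have := (c1 fun e => ∃ a ∈ S, ∃ b, b ∉ S ∧ ends e = s(a, b)).1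
      have := mul_le_mul_of_nonneg_left (h S a c) N0.le
      unfold cut at *
      linarith) fun h π => by
      have k1 := (c1 fun e => ¬ ((ends e).map π).IsDiag).1
      have k2 := mul_le_mul_of_nonneg_left (h π) N0.le
      rcases (Nat.succ_le_of_lt (card_pos.2 (univ_nonempty.image π))).eq_or_lt with k3 | k3
      · rw [← k3]
        simp
      · have : (2 : ℝ) ≤ (univ.image π).card := by exact_mod_cast k3
        nlinarith) b1
  have m1 : ∀ e, ((univ.filter fun i => e ∈ (T i).image Sigma.fst).card : ℝ) ≤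
      b * ((2 + ε) / k * x e) := fun e => by
    have k1 : (univ.filter fun i => e ∈ (T i).image Sigma.fst).card ≤
        (univ.filter fun a : Σ e, Fin ⌊N * x e⌋₊ => a.1 = e).card := by
      refine le_trans ?_ (card_le_card (s := univ.biUnion fun i => (T i).filter (·.1 = e))
        fun a ha => ?_)
      · rw [card_biUnion fun i _ j _ h => disjoint_filter_filter (t2 h), card_filter]
        refine sum_le_sum fun i _ => ?_
        split_ifs with h
        · obtain ⟨a, h1, h2⟩ := mem_image.1 h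
          exact card_pos.2 ⟨a, mem_filter.2 ⟨h1, h2⟩⟩
        · exact Nat.zero_le _
      · obtain ⟨i, -, h⟩ := mem_biUnion.1 ha
        exact mem_filter.2 ⟨mem_univ _, (mem_filter.1 h).2⟩
    have k2 := (c1 (· = e)).2
    rw [filter_eq', if_pos (mem_univ e), sum_singleton] at k2
    refine le_trans (by exact_mod_cast k1) (k2.trans ?_)
    rw [← mul_assoc, ← mul_div_assoc]
    exact mul_le_mul_of_nonneg_right ((le_div_iff₀ hk).2 (by linarith)) (hx e)
  refine ⟨b, fun i => (T i).image Sigma.fst, by exact_mod_cast b4, fun i => ⟨?_, fun S => ?_⟩,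
    fun e => (div_le_iff₀' b4).2 (m1 e), fun c hc => ?_⟩
  · obtain ⟨k1, k2, k3⟩ := t1 i
    refine ⟨by rwa [card_image_of_injOn (Set.InjOn.of_comp k2)], ?_, by
      rwa [coe_image, Set.image_image]⟩
    rw [coe_image]
    rintro _ ⟨a, ha, rfl⟩ _ ⟨a', ha', rfl⟩ k
    rw [k2 ha ha' k]
  · have k1 : ((cut ends ((T i).image Sigma.fst) S).card : ℝ) ≤
        (cut (fun a : Σ e, Fin ⌊N * x e⌋₊ => ends a.1) (T i) S).card := by
      unfold cut
      rw [filter_image]
      exact_mod_cast card_image_le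
    have k2 := (c1 fun e => ∃ a ∈ S, ∃ b, b ∉ S ∧ ends e = s(a, b)).2
    refine k1.trans ((single T i S).trans ((t3 i 1 S).trans ((mul_le_mul_of_nonneg_left k2
      (div_nonneg (by positivity) (by linarith))).trans ?_)))
    rw [← mul_assoc]
    refine mul_le_mul_of_nonneg_right ?_ (sum_nonneg fun e _ => hx e)
    have k3 : 1 ≤ 1 / ε ^ 12 := (one_le_div (by positivity)).2 (pow_le_one₀ hε.le hε1)
    rw [div_mul_eq_mul_div, div_le_div_iff₀ (by linarith) hk, show 10 ^ 90 / (ε / 2) ^ 12 =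
      4096 * 10 ^ 90 * (1 / ε ^ 12) by field_simp; norm_num, div_eq_mul_one_div (10 ^ 94),
      Nat.cast_one, mul_assoc _ N]
    calc _ ≤ 10 ^ 94 / 2 * (1 / ε ^ 12) * (N * k) := by gcongr; nlinarith
      _ = 10 ^ 94 * (1 / ε ^ 12) * (N * k / 2) := by ring
      _ ≤ _ := by gcongr; linarith
  · have : Nonempty (Fin b) := ⟨⟨0, by exact_mod_cast b4⟩⟩
    obtain ⟨i, -, hi⟩ := exists_le_of_sum_le (s := univ) univ_nonempty
      (f := fun i => ∑ e ∈ (T i).image Sigma.fst, c e)
      (g := fun _ => (2 + ε) / k * ∑ e, c e * x e) (by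
        rw [sum_comm' (t' := univ) (s' := fun e => univ.filter fun i => e ∈ (T i).image Sigma.fst)
          (by simp), sum_const, card_fin, nsmul_eq_mul, mul_sum, mul_sum]
        refine sum_le_sum fun e _ => ?_
        rw [sum_const, nsmul_eq_mul]
        nlinarith [mul_le_mul_of_nonneg_right (m1 e) (hc e)])
    exact ⟨i, hi⟩

/-- the complete graph -/
theorem sharp {k : ℕ} (hk : 1 ≤ k) : ∃ (E : Type) (_ : Fintype E) (_ : DecidableEq E)
    (ends : E → Sym2 (Fin (k + 1))), (∀ e, ¬ (ends e).IsDiag) ∧ EdgeConnected ends k ∧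
    ∀ (b : ℕ) (T : Fin b → Finset E), (∀ i, IsSpanningTree ends (T i)) →
      (Pairwise fun i j => Disjoint (T i) (T j)) → ∃ S : Finset (Fin (k + 1)), S.Nonempty ∧
        S ≠ univ ∧ 2 * b * (cut ends univ S).card ≤ (k + 1) * (cut ends (univ.biUnion T) S).card := by
  refine ⟨{e : Sym2 (Fin (k + 1)) // ¬ e.IsDiag}, inferInstance, inferInstance, Subtype.val,
    fun e => e.2, fun S ⟨a, ha⟩ h => ?_, fun b T h1 h2 => ?_⟩
  · obtain ⟨c, hc⟩ : ∃ c, c ∉ S := not_forall.1 fun k => h (eq_univ_of_forall k)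
    refine le_trans ?_ (card_image_le (f := Subtype.val))
    refine le_trans (by simp) (card_le_card_of_injOn (s := univ.erase a)
      (fun w => if w ∈ S then s(w, c) else s(a, w)) (fun w _ => ?_) fun w hw z hz h => ?_)
    · by_cases l : w ∈ S
      · exact mem_image.2 ⟨⟨s(w, c), fun k => hc (Sym2.mk_isDiag_iff.1 k ▸ l)⟩,
          mem_cut.2 ⟨mem_univ _, w, l, c, hc, rfl⟩, (if_pos l).symm⟩
      · exact mem_image.2 ⟨⟨s(a, w), fun k => l (Sym2.mk_isDiag_iff.1 k ▸ ha)⟩,
          mem_cut.2 ⟨mem_univ _, a, ha, w, l, rfl⟩, (if_neg l).symm⟩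
    · have := (mem_erase.1 hw).1
      have := (mem_erase.1 hz).1
      simp only at h
      split_ifs at h <;> grind
  by_contra h0
  push Not at h0
  have k1 : ∀ w : Fin (k + 1), (k + 1) * (cut Subtype.val (univ.biUnion T) {w}).card <
      2 * b * k := fun w => by
    refine (h0 {w} (singleton_nonempty w) fun h => ?_).trans_le (Nat.mul_le_mul_left _ ?_)
    · have := congrArg card h
      simp at this
      omega
    · rw [← card_image_of_injective _ Subtype.val_injective]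
      refine (card_le_card (t := (univ.erase w).image fun z => s(w, z)) fun e he => ?_).trans
        (card_image_le.trans (by simp))
      obtain ⟨e, h, rfl⟩ := mem_image.1 he
      obtain ⟨-, a, ha, c, hc, h⟩ := mem_cut.1 h
      exact mem_image.2 ⟨c, mem_erase.2 ⟨mt mem_singleton.2 hc, mem_univ _⟩,
        by rw [h, mem_singleton.1 ha]⟩
  have k2 := sum_lt_sum_of_nonempty (s := univ) univ_nonempty fun w _ => k1 w
  have k3 : (univ.biUnion T).card = b * k := by
    rw [card_biUnion fun i _ j _ h => h2 h, sum_congr rfl fun i _ =>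
      (by simpa using (h1 i).1 : (T i).card = k), sum_const, card_fin, smul_eq_mul]
  have k4 : (univ.biUnion T).card * 2 ≤
      ∑ w : Fin (k + 1), (cut Subtype.val (univ.biUnion T) {w}).card := by
    rw [sum_congr rfl fun w _ => (congrArg card (filter_mem_eq_inter.trans (inter_eq_right.2
      fun _ h => (mem_cut.1 h).1 : univ.biUnion T ∩ cut Subtype.val (univ.biUnion T) {w} = _))).symm]
    simp only [card_filter]
    rw [sum_comm]
    refine card_nsmul_le_sum _ _ 2 fun ⟨e, he⟩ h => ?_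
    induction e using Sym2.ind with
    | _ a c =>
      have l : a ≠ c := mt Sym2.mk_isDiag_iff.2 he
      rw [← card_filter]
      exact one_lt_card.2 ⟨a, mem_filter.2 ⟨mem_univ _, mem_cut.2 ⟨h, a, mem_singleton_self a, c,
        mt mem_singleton.1 l.symm, rfl⟩⟩, c, mem_filter.2 ⟨mem_univ _, mem_cut.2 ⟨h, c,
        mem_singleton_self c, a, mt mem_singleton.1 l, Sym2.eq_swap⟩⟩, l⟩
  rw [← mul_sum, sum_const, card_fin, smul_eq_mul] at k2
  rw [k3] at k4
  nlinarith [Nat.mul_le_mul_left (k + 1) k4]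

end Vale.Agent.N061
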