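import Vale.Agent.P061Z.Flats

/-! # P061: the tree packing theorem of Nash-Williams and Tutte -/

namespace Vale.Agent.N061

open Finset Module Vale.Agent.P061Z

variable {V E : Type} [Fintype V] [DecidableEq V] [Fintype E] [DecidableEq E] (u v : E → V)

/-- The functions that are constant along the edges of `J`. -/
def Wc (J : Finset E) : Submodule ℝ (V → ℝ) where
  carrier := {x | ∀ e ∈ J, x (u e) = x (v e)}
  add_mem' hx hy e he := by simp only [Pi.add_apply, hx e he, hy e he]
  zero_mem' _ _ := rfl
  smul_mem' c x hx e he := by simp only [Pi.smul_apply, hx e he]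

/-- The number of components of `J`. -/
noncomputable def cc (J : Finset E) : ℕ := finrank ℝ (Wc u v J)

omit [DecidableEq V] [Fintype E] in
lemma cc_super {A B C D : Finset E} (h1 : C ⊆ A ∪ B) (h2 : D ⊆ A ∩ B) :
    cc u v A + cc u v B ≤ cc u v C + cc u v D := by
  unfold cc
  rw [← Submodule.finrank_sup_add_finrank_inf_eq, add_comm]
  refine add_le_add (Submodule.finrank_mono fun x hx e he => ?_) (Submodule.finrank_mono
    (sup_le (fun x hx e he => hx e (mem_inter.1 (h2 he)).1) fun x hx e he =>
      hx e (mem_inter.1 (h2 he)).2))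
  exact (mem_union.1 (h1 he)).elim (hx.1 e) (hx.2 e)

omit [DecidableEq V] [Fintype E] [DecidableEq E] in
lemma cc_pos [Nonempty V] (J : Finset E) : 1 ≤ cc u v J :=
  Submodule.one_le_finrank_iff.2 ((Submodule.ne_bot_iff _).2
    ⟨fun _ => 1, fun _ _ => rfl, one_ne_zero⟩)

omit [Fintype E] [DecidableEq E] in
lemma conn_of_cc {J : Finset E} (h : cc u v J ≤ 1) (S : Finset V) (h1 : S.Nonempty)
    (h2 : S ≠ univ) : (cutE u v J S).Nonempty := by
  by_contra h0
  obtain ⟨a, ha⟩ := h1
  obtain ⟨b, hb⟩ : ∃ b, b ∉ S := not_forall.1 fun k => h2 (eq_univ_of_forall k)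
  have k : ∀ e ∈ J, (u e ∈ S ↔ v e ∈ S) := fun e he => by
    by_contra k
    exact h0 ⟨e, mem_filter.2 ⟨he, k⟩⟩
  have h3 : Flats.pc (fun x => if x ∈ S then 1 else 0) ≤ Wc u v J := fun x hx e he =>
    Flats.mem_pc.1 hx _ _ (by simp only [k e he])
  have h4 := Submodule.finrank_mono h3
  rw [Flats.finrank_pc] at h4
  have h5 : 1 < nparts fun x => if x ∈ S then 1 else 0 := one_lt_card.2
    ⟨1, mem_image.2 ⟨a, mem_univ _, by simp [ha]⟩, 0, mem_image.2 ⟨b, mem_univ _, by simp [hb]⟩,
      one_ne_zero⟩
  exact absurd (h4.trans h) (not_le.2 h5)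

omit [DecidableEq V] [Fintype E] in
lemma cc_pc {A : Finset E} {m : ℕ} (h : PC u v A m) (J : Finset E) :
    m * cc u v J ≤ m + (A \ J).card := by
  have h1 := h (Flats.lab (Wc u v J))
  have h2 := Submodule.finrank_mono (Flats.le_pc_lab (Wc u v J))
  rw [Flats.finrank_pc] at h2
  have h3 : (crossE u v A (Flats.lab (Wc u v J))).card ≤ (A \ J).card :=
    card_le_card fun e he => mem_sdiff.2 ⟨(mem_filter.1 he).1, fun k =>
      (mem_filter.1 he).2 (Flats.lab_eq.2 fun x hx => hx e k)⟩
  have h4 : (m : ℝ) * cc u v J ≤ m * nparts (Flats.lab (Wc u v J)) :=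
    mul_le_mul_of_nonneg_left (by exact_mod_cast h2) (Nat.cast_nonneg _)
  have h5 : ((crossE u v A (Flats.lab (Wc u v J))).card : ℝ) ≤ (A \ J).card := by exact_mod_cast h3
  exact_mod_cast (by linarith : (m : ℝ) * cc u v J ≤ m + (A \ J).card)

/-- lists of colours that satisfy the rank condition -/
def Good (A : Finset E) (m : ℕ) (L : E → Finset ℕ) : Prop :=
  ∀ J : Finset E, ∑ i ∈ range m, cc u v (J.filter fun e => i ∈ L e) ≤ m + (A \ J).card

omit [DecidableEq V] [Fintype E] in
lemma shrink {A : Finset E} {m : ℕ} {L : E → Finset ℕ} (h : Good u v A m L) (e : E) {a b : ℕ}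
    (hab : a ≠ b) : Good u v A m (Function.update L e ((L e).erase a)) ∨
      Good u v A m (Function.update L e ((L e).erase b)) := by
  by_contra h0
  simp only [Good, not_or, not_forall, not_le] at h0
  obtain ⟨⟨J, hJ⟩, K, hK⟩ := h0
  have key : ∀ (J : Finset E) (c : ℕ), m + (A \ J).card < ∑ i ∈ range m, cc u v
      (J.filter fun x => i ∈ Function.update L e ((L e).erase c) x) → e ∈ J := fun J c hJ => by
    by_contra k
    refine absurd (h J) (not_le.2 (hJ.trans_eq (sum_congr rfl fun i _ => ?_)))
    rw [filter_congr fun x hx => by rw [Function.update_of_ne (ne_of_mem_of_not_mem hx k)]]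
  have h1 := key J a hJ
  have h2 := key K b hK
  have h3 := sum_le_sum fun i (_ : i ∈ range m) => cc_super u v
    (A := J.filter fun x => i ∈ Function.update L e ((L e).erase a) x)
    (B := K.filter fun x => i ∈ Function.update L e ((L e).erase b) x)
    (C := (J ∪ K).filter fun x => i ∈ L x) (D := ((J ∩ K).erase e).filter fun x => i ∈ L x)
    (fun x hx => by
      simp only [mem_filter, mem_union] at hx ⊢
      by_cases k : x = e
      · subst k
        simp only [Function.update_self, mem_erase]
        by_cases l : i = a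
        · exact Or.inr ⟨h2, l ▸ hab, hx.2⟩
        · exact Or.inl ⟨h1, l, hx.2⟩
      · simp only [Function.update_of_ne k]
        tauto)
    fun x hx => by
      simp only [mem_filter, mem_inter, mem_erase] at hx ⊢
      simp only [Function.update_of_ne hx.1.1]
      tauto
  rw [sum_add_distrib, sum_add_distrib] at h3
  have h4 := h (J ∪ K)
  have h5 := h ((J ∩ K).erase e)
  have h6 := card_union_add_card_inter (A \ J) (A \ K)
  have h7 : (A \ (J ∩ K).erase e).card ≤ _ := (card_le_card
    (t := insert e (A \ J ∪ A \ K)) fun x hx => by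
      simp only [mem_sdiff, mem_erase, mem_inter, mem_insert, mem_union] at hx ⊢
      tauto).trans (card_insert_le _ _)
  rw [sdiff_union_distrib] at h4
  omega

/-- **Nash-Williams, Tutte**: `m` disjoint connected spanning edge sets. -/
theorem nwt [Nonempty V] {A : Finset E} {m : ℕ} (h : PC u v A m) : ∃ g : E → ℕ, ∀ i < m,
    ∀ S : Finset V, S.Nonempty → S ≠ univ → (cutE u v (A.filter fun e => g e = i) S).Nonempty := by
  have key : ∀ (N : ℕ) (L : E → Finset ℕ), ∑ e, (L e).card = N → Good u v A m L →
      ∃ L, Good u v A m L ∧ ∀ e, (L e).card ≤ 1 := by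
    intro N
    induction N using Nat.strong_induction_on with
    | _ N ih =>
      intro L hL hG
      by_contra h0
      push Not at h0
      obtain ⟨e, he⟩ := h0 L hG
      obtain ⟨a, ha, b, hb, hab⟩ := one_lt_card.1 he
      have k : ∀ c ∈ L e, ¬ Good u v A m (Function.update L e ((L e).erase c)) := fun c hc k => by
        have lt : ∑ x, (Function.update L e ((L e).erase c) x).card < ∑ x, (L x).card := by
          refine sum_lt_sum (fun x _ => ?_) ⟨e, mem_univ _, ?_⟩
          · by_cases l : x = e
            · subst l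
              rw [Function.update_self]
              exact card_erase_le
            · rw [Function.update_of_ne l]
          · rw [Function.update_self]
            exact card_erase_lt_of_mem hc
        obtain ⟨L', k1, k2⟩ := ih _ (hL ▸ lt) _ rfl k
        obtain ⟨x, hx⟩ := h0 L' k1
        exact absurd (k2 x) (not_le.2 hx)
      exact (shrink u v hG e hab).elim (k a ha) (k b hb)
  obtain ⟨L, h1, h2⟩ := key _ (fun _ => range m) rfl fun J => by
    rw [sum_congr rfl fun i hi => by rw [filter_true_of_mem fun _ _ => hi], sum_const, card_range]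
    exact cc_pc u v h J
  choose g hg using fun e => card_le_one_iff_subset_singleton.1 (h2 e)
  refine ⟨g, fun i hi S k1 k2 => (conn_of_cc u v (J := A.filter fun e => i ∈ L e) ?_ S k1 k2).mono
    (filter_subset_filter _ fun e he => mem_filter.2 ⟨(mem_filter.1 he).1,
      (mem_singleton.1 (hg e (mem_filter.1 he).2)).symm⟩)⟩
  by_contra k
  have h3 := sum_lt_sum (fun j (_ : j ∈ range m) => cc_pos u v (A.filter fun e => j ∈ L e))
    ⟨i, mem_range.2 hi, not_le.1 k⟩
  have h4 := h1 A
  rw [sum_const, card_range, smul_eq_mul] at h3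
  rw [Finset.sdiff_self, card_empty] at h4
  omega

end Vale.Agent.N061
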