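import Vale.Agent.P061Z.Iter

/-! # P061: splitting a graph into many thin, well connected parts -/

namespace Vale.Agent.N061

open Finset Vale.Agent.P061Z

open MSS2 in
theorem mss2 {J n₁ n₂ : Type} [DecidableEq J] [Fintype n₁] [DecidableEq n₁] [Fintype n₂]
    [DecidableEq n₂] (F : Finset J) {Q₁ : (n₁ → ℝ) → ℝ} {Q₂ : (n₂ → ℝ) → ℝ}
    (h₁ : IsPD Q₁) (h₂ : IsPD Q₂) (a : J → (n₁ → ℝ) →ₗ[ℝ] ℝ) (b : J → (n₂ → ℝ) →ₗ[ℝ] ℝ)
    (ε : ℝ) (hε : 0 < ε)
    (ha : ∀ j ∈ F, ∀ x, (a j x) ^ 2 ≤ ε * Q₁ x) (hb : ∀ j ∈ F, ∀ y, (b j y) ^ 2 ≤ ε * Q₂ y)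
    (hsa : ∀ x, ∑ j ∈ F, (a j x) ^ 2 ≤ Q₁ x) (hsb : ∀ y, ∑ j ∈ F, (b j y) ^ 2 ≤ Q₂ y) :
    ∃ H ⊆ F,
      (∀ x, |∑ j ∈ H, (a j x) ^ 2 - 1 / 2 * ∑ j ∈ F, (a j x) ^ 2| ≤ 8 * Real.sqrt ε * Q₁ x) ∧
      (∀ y, |∑ j ∈ H, (b j y) ^ 2 - 1 / 2 * ∑ j ∈ F, (b j y) ^ 2| ≤ 8 * Real.sqrt ε * Q₂ y) := by
  obtain ⟨e₁, u₁, s₁, q₁, p₁⟩ := coords h₁ a
  obtain ⟨e₂, u₂, s₂, q₂, p₂⟩ := coords h₂ b
  obtain ⟨r, hr⟩ : ∃ r : ℝ, r ^ 2 = 1 / 2 := ⟨_, Real.sq_sqrt (by norm_num)⟩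
  let v : F → n₁ ⊕ n₂ → ℝ := fun i k => r * Sum.elim (u₁ i) (u₂ i) k
  have hv : ∀ (i : F) (x : n₁ ⊕ n₂ → ℝ), (∑ k, v i k * x k) ^ 2 =
      1 / 2 * (a i (e₁ fun k => x (Sum.inl k)) + b i (e₂ fun k => x (Sum.inr k))) ^ 2 := by
    intro i x
    rw [p₁, p₂, ← hr, ← mul_pow]
    simp only [v, Fintype.sum_sum_type, Sum.elim_inl, Sum.elim_inr, mul_assoc, ← mul_sum, mul_add]
  have hx : ∀ x : n₁ ⊕ n₂ → ℝ, ∑ k, x k ^ 2 =
      Q₁ (e₁ fun k => x (Sum.inl k)) + Q₂ (e₂ fun k => x (Sum.inr k)) := by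
    intro x
    rw [q₁, q₂, Fintype.sum_sum_type]
  obtain ⟨s, hs⟩ := mss_sign v ε hε
    (fun i => by
      have k1 := ha i i.2 (e₁ (u₁ i))
      have k2 := hb i i.2 (e₂ (u₂ i))
      rw [p₁, q₁] at k1
      rw [p₂, q₂] at k2
      simp only [v, Fintype.sum_sum_type, Sum.elim_inl, Sum.elim_inr, mul_pow, hr, ← mul_sum]
      linarith [norm_le hε.le k1, norm_le hε.le k2])
    fun x => by
      rw [hx]
      refine le_trans ?_ (add_le_add (hsa _) (hsb _))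
      rw [← sum_add_distrib, ← sum_coe_sort F]
      refine sum_le_sum fun i _ => ?_
      rw [hv]
      nlinarith [sq_nonneg (a i (e₁ fun k => x (Sum.inl k)) - b i (e₂ fun k => x (Sum.inr k)))]
  refine ⟨s.map (Function.Embedding.subtype _), fun j hj => ?_, fun x => ?_, fun y => ?_⟩
  · obtain ⟨i, -, rfl⟩ := mem_map.1 hj
    exact i.2
  · obtain ⟨x, rfl⟩ := s₁ x
    have k := abs_le.1 (hs (Sum.elim x 0))
    have z1 : ∀ j, b j (e₂ fun _ => 0) = 0 := fun j => by simp [p₂]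
    have z2 : Q₂ (e₂ fun _ => 0) = 0 := by simp [q₂]
    simp only [hv, hx, Sum.elim_inl, Sum.elim_inr, Pi.zero_apply, z1, z2, add_zero,
      ← mul_sum] at k
    rw [sum_map, ← sum_coe_sort F, abs_le]
    simp only [Function.Embedding.coe_subtype]
    constructor <;> linarith [k.1, k.2]
  · obtain ⟨y, rfl⟩ := s₂ y
    have k := abs_le.1 (hs (Sum.elim 0 y))
    have z1 : ∀ j, a j (e₁ fun _ => 0) = 0 := fun j => by simp [p₁]
    have z2 : Q₁ (e₁ fun _ => 0) = 0 := by simp [q₁]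
    simp only [hv, hx, Sum.elim_inl, Sum.elim_inr, Pi.zero_apply, z1, z2, zero_add,
      ← mul_sum] at k
    rw [sum_map, ← sum_coe_sort F, abs_le]
    simp only [Function.Embedding.coe_subtype]
    constructor <;> linarith [k.1, k.2]

open Halve in
/-- the halving lemma with both halves -/
theorem halve2 {V E : Type} [Fintype V] [DecidableEq V] [Fintype E] [DecidableEq E] [Nonempty V]
    (u v : E → V) (k : ℝ) (s : ℕ) (hs : 3 ≤ s) (hk : 2 * (s : ℝ) ^ 12 ≤ k) (hpc : PC u v univ k) :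
    ∃ H : Bool → Finset E, Disjoint (H false) (H true) ∧ ∀ i,
      PC u v (H i) ((1 / 2 - 12180 / s) * k) ∧
      ∀ S, ((cutE u v (H i) S).card : ℝ) ≤ (1 / 2 + 12180 / s) * (cutE u v univ S).card := by
  have hs3 : (3 : ℝ) ≤ s := by exact_mod_cast hs
  have hs0 : (0 : ℝ) < s := by linarith
  have hs12 : (0 : ℝ) < (s : ℝ) ^ 12 := by positivity
  have hk0 : 0 < k := by linarith
  have hr1 : 1 / (s : ℝ) ≤ 1 / 3 := one_div_le_one_div_of_le (by norm_num) hs3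
  have hr0 : 0 < 1 / (s : ℝ) := by positivity
  have hm : 16 ≤ s ^ 3 := le_trans (by norm_num) (Nat.pow_le_pow_left hs 3)
  have hm4 : (((s ^ 3 : ℕ) : ℝ)) ^ 4 ≤ (1 - 1 / (s : ℝ)) * k := by
    push_cast
    rw [← pow_mul]
    have h4 : 1 / 2 * k ≤ (1 - 1 / (s : ℝ)) * k :=
      mul_le_mul_of_nonneg_right (by linarith) hk0.le
    norm_num at h4 ⊢
    linarith
  have hκ0 : 0 < (1 - 1 / (s : ℝ)) * k := mul_pos (by linarith) hk0
  have hκk : (1 - 1 / (s : ℝ)) * k ≤ k := mul_le_of_le_one_left hk0.le (by linarith)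
  obtain ⟨D, hD, hF⟩ := fix u v k (1 / s) (28 / (s : ℝ) ^ 2) (14 / ((s ^ 3 : ℕ) : ℝ)) 200 hk0 hr0
    (by linarith) (by positivity)
    (by
      push_cast
      rw [div_mul_div_comm, ← pow_succ', one_mul]
      exact div_lt_div_of_pos_right (by norm_num) (by positivity)) hpc
    fun 𝒦 hch hec => chain u v (s ^ 3) hm (pc_anti hpc (hm4.trans hκk)) 𝒦 hch
      fun π hπ => partsEC_anti (hec π hπ) hm4
  obtain ⟨n, _, _, Q, φ, hQ, hφ1, hφ2, hφ3⟩ := forster_graph u v _ _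
    ((1 + 1 / (s : ℝ)) / ((1 - 1 / (s : ℝ)) * k)) hκ0
    (div_lt_div_of_pos_right (by linarith) hκ0) hF
  obtain ⟨F, hFe⟩ : ∃ F, F = univ.filter fun e => res u v D e ≤ 2 * (28 / (s : ℝ) ^ 2) := ⟨_, rfl⟩
  rw [← hFe] at hφ1 hφ2 hφ3
  obtain ⟨H, hHF, hH1, hH2⟩ := mss2 F (qB_isPD u v hD.1) hQ (bE u v) φ
    (2 * (28 / (s : ℝ) ^ 2)) (by positivity)
    (fun e he x => (sq_le_res u v hD.1 e x).trans (mul_le_mul_of_nonneg_right
      (mem_filter.1 (hFe.subset he)).2 (isPD_nonneg (qB_isPD u v hD.1) x)))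
    (fun e he y => (hφ1 e he y).trans
      (mul_le_mul_of_nonneg_right (c_small hs3 hk) (isPD_nonneg hQ y)))
    (fun x => sum_sq_le_qB u v hD.1 _ x) hφ2
  have key : ∀ H ⊆ F, (∀ x, ∑ j ∈ H, (bE u v j x) ^ 2 ≤ 1 / 2 * ∑ j ∈ F, (bE u v j x) ^ 2 +
      8 * Real.sqrt (2 * (28 / (s : ℝ) ^ 2)) * qB u v D x) → (∀ y, 1 / 2 * ∑ j ∈ F, (φ j y) ^ 2 -
      8 * Real.sqrt (2 * (28 / (s : ℝ) ^ 2)) * Q y ≤ ∑ j ∈ H, (φ j y) ^ 2) →
      PC u v H ((1 / 2 - 12180 / s) * k) ∧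
      ∀ S, ((cutE u v H S).card : ℝ) ≤ (1 / 2 + 12180 / s) * (cutE u v univ S).card := by
    intro H hHF hH1 hH2
    refine ⟨pc_anti (hφ3 H hHF _ hH2) (pc_const hs3 hk0 (sqrt_bound hs0)), fun S => ?_⟩
    rcases Nat.eq_zero_or_pos (cutE u v univ S).card with h0 | h0
    · have h1 : (cutE u v H S).card = 0 :=
        Nat.eq_zero_of_le_zero (h0 ▸ card_le_card (cutE_mono u v (subset_univ H) S))
      rw [h0, h1]
      simp
    · have h1 := hH1 fun a => if a ∈ S then 1 else 0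
      simp only [bE_apply] at h1
      rw [sum_sq_indicator, sum_sq_indicator] at h1
      have h2 := qB_indicator u v D S
      have h3 := hD.2 S
      refine cut_const hs0 (by exact_mod_cast h0) ?_ ?_ (h1.trans (add_le_add le_rfl
        (mul_le_mul_of_nonneg_right (sqrt_bound hs0) (isPD_nonneg (qB_isPD u v hD.1) _))))
      · exact_mod_cast card_le_card (cutE_mono u v (subset_univ _) S)
      · linarith
  refine ⟨fun i => if i then F \ H else H, disjoint_sdiff, fun i => ?_⟩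
  cases i
  · exact key H hHF (fun x => by linarith [(abs_le.1 (hH1 x)).2])
      fun y => by linarith [(abs_le.1 (hH2 y)).1]
  · refine key (F \ H) sdiff_subset (fun x => ?_) fun y => ?_
    · rw [sum_sdiff_eq_sub hHF]
      linarith [(abs_le.1 (hH1 x)).1]
    · rw [sum_sdiff_eq_sub hHF]
      linarith [(abs_le.1 (hH2 y)).2]

variable {V E : Type} [Fintype V] [DecidableEq V] [Fintype E] [DecidableEq E] [Nonempty V]
  (u v : E → V)

omit [Fintype E] in
/-- the halving lemma inside an edge set -/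
theorem halveA (A : Finset E) {k x : ℝ} (hx : 0 < x) (hx1 : x ≤ 1) (hk : 2 * (24360 / x) ^ 12 ≤ k)
    (hpc : PC u v A k) : ∃ H : Bool → Finset E, Disjoint (H false) (H true) ∧ ∀ i, H i ⊆ A ∧
      PC u v (H i) ((1 / 2 - x) * k) ∧
      ∀ S, ((cutE u v (H i) S).card : ℝ) ≤ (1 / 2 + x) * (cutE u v A S).card := by
  have h1 : 12180 ≤ 12180 / x := by rw [le_div_iff₀ hx]; linarith
  have h2 := Nat.le_ceil (12180 / x)
  have h3 := Nat.ceil_lt_add_one (show 0 ≤ 12180 / x by linarith)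
  have h4 : 24360 / x = 2 * (12180 / x) := by ring
  have h5 : 12180 / (⌈12180 / x⌉₊ : ℝ) ≤ x := by
    rw [div_le_iff₀ (by linarith)]
    rw [div_le_iff₀ hx] at h2
    linarith
  have hk0 : 0 ≤ k := le_trans (by positivity) hk
  obtain ⟨H, k1, k2⟩ := halve2 (fun e : {e // e ∈ A} => u e) (fun e => v e) k ⌈12180 / x⌉₊
    (by exact_mod_cast (show (3 : ℝ) ≤ ⌈12180 / x⌉₊ by linarith))
    (le_trans (by gcongr; linarith) hk) (Iter.pc_sub hpc)
  refine ⟨fun i => (H i).map (Function.Embedding.subtype _), (disjoint_map _).2 k1, fun i =>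
    ⟨fun e he => ?_, fun π => ?_, fun S => ?_⟩⟩
  · obtain ⟨e, -, rfl⟩ := mem_map.1 he
    exact e.2
  · refine (Halve.pc_anti (k2 i).1 (mul_le_mul_of_nonneg_right (by linarith) hk0) π).trans
      (le_of_eq ?_)
    unfold crossE
    rw [filter_map, card_map]
    rfl
  · rw [Iter.card_cutE_map]
    refine ((k2 i).2 S).trans ?_
    rw [← Iter.card_cutE_map, Iter.map_univ_sub]
    exact mul_le_mul_of_nonneg_right (by linarith) (Nat.cast_nonneg _)

omit [Fintype E] in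
/-- `2 ^ j` parts -/
theorem split {y β : ℝ} (hy : 0 < y) (hy1 : y ≤ 1 / 100) (hβ : 2 * (24360 / y) ^ 12 ≤ β) (j : ℕ)
    (A : Finset E) (hA : PC u v A (2 ^ j * β * (1 + 100 * y * (1 - (20 / 21) ^ j)))) :
    ∃ f : E → ℕ, ∀ i < 2 ^ j, PC u v (A.filter fun e => f e = i) β ∧
      ∀ S, ((cutE u v (A.filter fun e => f e = i) S).card : ℝ) ≤
        (1 + 100 * y * (1 - (20 / 21) ^ j)) / 2 ^ j * (cutE u v A S).card := by
  induction j generalizing A with
  | zero =>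
    refine ⟨fun _ => 0, fun i hi => ?_⟩
    rw [filter_true_of_mem fun _ _ => (Nat.lt_one_iff.1 hi).symm]
    exact ⟨by simpa using hA, fun S => by simp⟩
  | succ j ih =>
    obtain ⟨r, hr⟩ : ∃ r : ℝ, r = (20 / 21) ^ (j + 1) := ⟨_, rfl⟩
    have r0 : 0 < r := hr ▸ by positivity
    have r1 : r ≤ 20 / 21 := by
      rw [hr, pow_succ]
      exact mul_le_of_le_one_left (by norm_num) (pow_le_one₀ (by norm_num) (by norm_num))
    have r2 : (20 / 21 : ℝ) ^ j = 21 / 20 * r := by rw [hr, pow_succ]; ring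
    have r3 : 1 ≤ 2 ^ (j + 1) * r ^ 12 := by
      rw [hr, ← pow_mul, mul_comm (j + 1), pow_mul, ← mul_pow]
      exact one_le_pow₀ (by norm_num)
    have b0 : 0 < β := lt_of_lt_of_le (by positivity) hβ
    obtain ⟨x, hx⟩ : ∃ x, x = y * r := ⟨_, rfl⟩
    have x0 : 0 < x := hx ▸ by positivity
    have x1 : x ≤ 20 / 21 * y := by rw [hx]; nlinarith
    have e1 : 100 * y * (1 - r) = 100 * y - 100 * x := by rw [hx]; ring
    have e2 : 100 * y * (1 - 21 / 20 * r) = 100 * y - 105 * x := by rw [hx]; ring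
    rw [← hr, e1] at hA ⊢
    rw [r2, e2] at ih
    obtain ⟨H, h1, h2⟩ := halveA u v A x0 (by linarith) (by
      have : 2 * (24360 / x) ^ 12 * r ^ 12 ≤ β := by
        rw [hx]
        refine le_trans (le_of_eq ?_) hβ
        field_simp
      calc _ ≤ 2 * (24360 / x) ^ 12 * (2 ^ (j + 1) * r ^ 12) :=
            le_mul_of_one_le_right (by positivity) r3
        _ = 2 ^ (j + 1) * (2 * (24360 / x) ^ 12 * r ^ 12) * 1 := by ring
        _ ≤ _ := by gcongr; linarith) hA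
    choose f hf using fun i => ih (H i) (Halve.pc_anti (h2 i).2.1 (by
      have : (0 : ℝ) < 2 ^ j * β := by positivity
      rw [pow_succ]
      nlinarith [mul_le_mul_of_nonneg_left (show 1 + (100 * y - 105 * x) ≤
        (1 - 2 * x) * (1 + (100 * y - 100 * x)) by nlinarith) this.le]))
    refine ⟨fun e => if e ∈ H false then 2 * f false e else if e ∈ H true then 2 * f true e + 1
      else 2 ^ (j + 1), fun i hi => ?_⟩
    obtain ⟨c, l, hl, he⟩ : ∃ c l, l < 2 ^ j ∧ (A.filter fun e => (if e ∈ H false then 2 * f false e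
        else if e ∈ H true then 2 * f true e + 1 else 2 ^ (j + 1)) = i) =
        (H c).filter fun e => f c e = l := by
      obtain ⟨l, rfl | rfl⟩ := Nat.even_or_odd' i
      · refine ⟨false, l, by omega, ext fun e => ?_⟩
        simp only [mem_filter]
        split_ifs with k1 k2
        · exact ⟨fun k => ⟨k1, by omega⟩, fun k => ⟨(h2 _).1 k1, by omega⟩⟩
        · exact ⟨fun k => by omega, fun k => absurd k.1 k1⟩
        · exact ⟨fun k => by omega, fun k => absurd k.1 k1⟩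
      · refine ⟨true, l, by omega, ext fun e => ?_⟩
        simp only [mem_filter]
        split_ifs with k1 k2
        · exact ⟨fun k => by omega, fun k => absurd k.1 (disjoint_left.1 h1 k1)⟩
        · exact ⟨fun k => ⟨k2, by omega⟩, fun k => ⟨(h2 _).1 k2, by omega⟩⟩
        · exact ⟨fun k => by omega, fun k => absurd k.1 k2⟩
    rw [he]
    refine ⟨(hf c l hl).1, fun S => ((hf c l hl).2 S).trans ((mul_le_mul_of_nonneg_left
      ((h2 c).2.2 S) (div_nonneg (by linarith) (by positivity))).trans ?_)⟩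
    rw [← mul_assoc, pow_succ, div_mul_eq_mul_div, mul_comm _ (2 : ℝ), ← div_div]
    gcongr
    nlinarith

end Vale.Agent.N061
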