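import Vale.Agent.P061Z.Final
import Vale.Agent.N061.Nwt
import Vale.Agent.N061.Split

/-! # P061: packings of thin spanning trees -/

namespace Vale.Agent.N061

open Finset Vale.Agent.P061Z

variable {V E : Type} [Fintype V] [DecidableEq V] [Fintype E] [DecidableEq E]

lemma params {ε κ γ D : ℝ} {b : ℕ} (hε : 0 < ε) (hε1 : ε ≤ 1) (hb : (2 + ε) * b ≤ 2 * κ)
    (g1 : 10 * γ ≤ D) (g2 : 10 ≤ ε * γ) (hs : γ * (1 + ε / 10) ≤ κ) : ∃ (J m : ℕ) (β : ℝ), γ ≤ β ∧
    κ = 2 ^ J * β * (1 + ε / 10) ∧ m ≤ β ∧ 0 < m ∧ b ≤ 2 ^ J * m ∧ ∀ j : ℕ,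
    ((j : ℝ) / m + 2) * ((1 + ε / 10) / 2 ^ J) ≤ ((2 + ε) * j + D) / (2 * κ) := by
  have g3 : 10 ≤ γ := by nlinarith
  have hκ : 0 < κ := lt_of_lt_of_le (by positivity) hs
  obtain ⟨J, j1, j2⟩ := exists_nat_pow_near ((one_le_div (by positivity)).2 hs) one_lt_two
  obtain ⟨β, hβ⟩ : ∃ β, β = κ / (2 ^ J * (1 + ε / 10)) := ⟨_, rfl⟩
  have p0 : (0 : ℝ) < 2 ^ J := by positivity
  have c0 : κ = 2 ^ J * β * (1 + ε / 10) := by rw [hβ]; field_simp
  have c1 : γ ≤ β := by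
    rw [le_div_iff₀ (by positivity)] at j1
    rw [hβ, le_div_iff₀ (by positivity)]
    linarith
  have c2 : β ≤ 2 * γ := by
    rw [div_lt_iff₀ (by positivity), pow_succ] at j2
    rw [hβ, div_le_iff₀ (by positivity)]
    linarith
  obtain ⟨m, hm⟩ : ∃ m, m = ⌊β⌋₊ := ⟨_, rfl⟩
  have m1 : (m : ℝ) ≤ β := hm ▸ Nat.floor_le (by linarith)
  have m2 : β < m + 1 := hm ▸ Nat.lt_floor_add_one β
  have m3 : β * (1 - ε / 10) ≤ m := by nlinarith
  have m4 : (0 : ℝ) < m := by linarith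
  have m5 : 0 < m := by exact_mod_cast m4
  have m6 : (1 + ε / 10) ^ 2 * β ≤ (1 + ε / 2) * m := by
    nlinarith [mul_le_mul_of_nonneg_left m3 (show 0 ≤ 1 + ε / 2 by linarith),
      mul_nonneg (mul_nonneg hε.le (show 0 ≤ 1 - ε by linarith)) (show 0 ≤ β by linarith),
      mul_pos hε (show 0 < β by linarith)]
  have m7 : b ≤ 2 ^ J * m := by
    have k1 : (1 + ε / 10) * β ≤ (1 + ε / 2) * m := by
      nlinarith [mul_pos (show 0 < (1 + ε / 10) * ε by positivity) (show 0 < β by linarith)]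
    have k2 : (1 + ε / 2) * b ≤ (1 + ε / 2) * (2 ^ J * m) := by
      nlinarith [mul_le_mul_of_nonneg_left k1 p0.le]
    exact_mod_cast le_of_mul_le_mul_left k2 (by linarith)
  refine ⟨J, m, β, c1, c0, m1, m5, m7, fun j => ?_⟩
  have k4 : (j : ℝ) / m * ((1 + ε / 10) ^ 2 * β) ≤ j * (1 + ε / 2) := by
    rw [div_mul_eq_mul_div, div_le_iff₀ m4, mul_assoc]
    exact mul_le_mul_of_nonneg_left m6 (Nat.cast_nonneg _)
  have k5 : (1 + ε / 10) ^ 2 * β ≤ 121 / 100 * (2 * γ) :=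
    mul_le_mul (by nlinarith) c2 (by linarith) (by norm_num)
  rw [le_div_iff₀ (by positivity), c0, show ((j : ℝ) / m + 2) * ((1 + ε / 10) / 2 ^ J) *
    (2 * (2 ^ J * β * (1 + ε / 10))) = 2 * (j / m * ((1 + ε / 10) ^ 2 * β)) +
      4 * ((1 + ε / 10) ^ 2 * β) by field_simp; ring]
  linarith

theorem pack [Nonempty V] (u v : E → V) {ε κ : ℝ} (hε : 0 < ε) (hε1 : ε ≤ 1) (hκ : 0 < κ)
    (h : PC u v univ κ) {b : ℕ} (hb : (2 + ε) * b ≤ 2 * κ) : ∃ g : E → ℕ,
    (∀ i < b, ∀ S : Finset V, S.Nonempty → S ≠ univ →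
      (cutE u v (univ.filter fun e => g e = i) S).Nonempty) ∧ ∀ (s j : ℕ) (S : Finset V),
      ((cutE u v (univ.filter fun e => s ≤ g e ∧ g e < s + j ∧ g e < b) S).card : ℝ) ≤
        ((2 + ε) * j + 10 ^ 90 / ε ^ 12) / (2 * κ) * (cutE u v univ S).card := by
  obtain ⟨γ, hγ⟩ : ∃ γ : ℝ, γ = 2 * (24360 / (ε / 1000)) ^ 12 := ⟨_, rfl⟩
  have g1 : 10 * γ ≤ 10 ^ 90 / ε ^ 12 := by
    rw [hγ, div_div_eq_mul_div, div_pow, ← mul_div_assoc, ← mul_div_assoc]
    gcongr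
    norm_num
  have g2 : 10 ≤ ε * γ := by
    have k1 : 10 ≤ ε * (24360 / (ε / 1000)) := by field_simp; norm_num
    have k2 : 1 ≤ 24360 / (ε / 1000) := by nlinarith
    have k3 := le_self_pow₀ k2 (show 12 ≠ 0 by norm_num)
    rw [hγ]
    nlinarith
  have g3 : 10 ≤ γ := by nlinarith
  have b0 : (0 : ℝ) ≤ b := Nat.cast_nonneg b
  rcases lt_or_ge κ (γ * (1 + ε / 10)) with hs | hs
  · obtain ⟨g, hg⟩ := nwt u v (A := univ) (m := b) (Halve.pc_anti h (by nlinarith))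
    refine ⟨g, hg, fun s j S => le_trans ?_ (le_mul_of_one_le_left (Nat.cast_nonneg _) ?_)⟩
    · exact_mod_cast card_le_card (Halve.cutE_mono u v (subset_univ _) S)
    · rw [le_div_iff₀ (by positivity)]
      nlinarith [mul_nonneg (show 0 ≤ 2 + ε by linarith) (Nat.cast_nonneg j)]
  obtain ⟨J, m, β, c1, c0, m1, m5, m7, m8⟩ := params hε hε1 hb g1 g2 hs
  have p0 : (0 : ℝ) < 2 ^ J := by positivity
  have c3 : 1 + 100 * (ε / 1000) * (1 - (20 / 21) ^ J) ≤ 1 + ε / 10 := by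
    nlinarith [mul_pos hε (show (0 : ℝ) < (20 / 21) ^ J by positivity)]
  obtain ⟨f, hf⟩ := split u v (y := ε / 1000) (β := β) (by positivity) (by linarith) (hγ ▸ c1) J
    univ (Halve.pc_anti h (c0 ▸ mul_le_mul_of_nonneg_left c3 (mul_pos p0 (by linarith)).le))
  choose! t ht using fun i (hi : i < 2 ^ J) => nwt u v (Halve.pc_anti (hf i hi).1 m1)
  refine ⟨fun e => if t (f e) e < m then f e * m + t (f e) e else b, fun i hi S k1 k2 =>
    (ht (i / m) (Nat.div_lt_of_lt_mul (by nlinarith)) (i % m) (Nat.mod_lt _ m5) S k1 k2).mono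
      (Halve.cutE_mono u v (fun e he => ?_) S), fun s j S => ?_⟩
  · simp only [mem_filter, mem_univ, true_and] at he ⊢
    rw [he.1, he.2, if_pos (Nat.mod_lt _ m5), Nat.div_add_mod']
  have k1 := (card_le_card (t := ((Icc (s / m) ((s + j) / m)).filter (· < 2 ^ J)).biUnion fun l =>
    cutE u v (univ.filter fun e => f e = l) S) (s := cutE u v (univ.filter fun e =>
      s ≤ (if t (f e) e < m then f e * m + t (f e) e else b) ∧
      (if t (f e) e < m then f e * m + t (f e) e else b) < s + j ∧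
      (if t (f e) e < m then f e * m + t (f e) e else b) < b) S) fun e he => by
      simp only [cutE, mem_filter, mem_univ, true_and, mem_biUnion, mem_Icc] at he ⊢
      split_ifs at he with l
      · refine ⟨f e, ⟨⟨Nat.le_of_lt_succ (Nat.div_lt_of_lt_mul (by nlinarith [he.1.1])),
          (Nat.le_div_iff_mul_le m5).2 (by omega)⟩, ?_⟩, rfl, he.2⟩
        exact lt_of_mul_lt_mul_right (by omega : f e * m < 2 ^ J * m) m.zero_le
      · omega).trans card_biUnion_le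
  have k2 := sum_le_card_nsmul ((Icc (s / m) ((s + j) / m)).filter (· < 2 ^ J)) _ _ fun l hl =>
    ((hf l (mem_filter.1 hl).2).2 S).trans (mul_le_mul_of_nonneg_right
      (div_le_div_of_nonneg_right c3 p0.le) (Nat.cast_nonneg _))
  have k3 : (((Icc (s / m) ((s + j) / m)).filter (· < 2 ^ J)).card : ℝ) ≤ j / m + 2 := by
    have l1 := card_filter_le (Icc (s / m) ((s + j) / m)) (· < 2 ^ J)
    have l2 := Nat.add_div_le_div_add_div_add_one s j m
    rw [Nat.card_Icc] at l1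
    have l3 : (((Icc (s / m) ((s + j) / m)).filter (· < 2 ^ J)).card : ℝ) ≤ (j / m : ℕ) + 2 := by
      exact_mod_cast l1.trans (Nat.sub_le_iff_le_add'.2 (Nat.succ_le_succ l2))
    linarith [Nat.cast_div_le (α := ℝ) (m := j) (n := m)]
  refine le_trans (by exact_mod_cast k1) (k2.trans ?_)
  rw [nsmul_eq_mul, ← mul_assoc]
  exact mul_le_mul_of_nonneg_right ((mul_le_mul_of_nonneg_right k3 (by positivity)).trans (m8 j))
    (Nat.cast_nonneg _)

end Vale.Agent.N061
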